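import Vale.Agent.P127.U.H560.LipWin
import Vale.Agent.P127.U.Lam.LipW1

/-!
# P127 / U / H560 : the field `lip` (helper560; wrapper by helper513)

* `pLipH : Inc.PLipH`
-/

set_option autoImplicit false

namespace Vale.Agent.P127.U.LipS

/-- **LIP** : the field `lip` of the increments -/
theorem pLipH : Inc.PLipH := pLipH_of lipWin

end Vale.Agent.P127.U.LipS
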