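import Vale.Agent.P127.U.Lam.LipA
import Vale.Agent.P127.U.H404.SubT

/-!
# P127 / U / H560 : LIP for a label of fixed shape (helper560)

A box `B` of constant shape `(k, j)` which lies in the slab of slope `u`, thickness `2^-ρ`, down to the
exponent `kp`.  If two copies of the slope given the line usually differ at the level `δ`, there is a
box with a value larger by `lam (ρ - δ)` than the value of `B` in the coordinates of the slab.

* `Fx` : the data;  `lip_fix` : the result, error `O(log (δ + 8))`.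
-/

set_option autoImplicit false

namespace Vale.Agent.P127.U.LipO

open Vale.Agent.P127 Vale.Agent.P127.Stk Vale.Agent.P127.U Apx C2 SubF Lip SubT

/-- the angle of two directions of slopes nearly `u`, `u'` -/
theorem sin_far {θ θ' u u' ε : ℝ} (hu : |u| ≤ 1) (hu' : |u'| ≤ 1)
    (h : |Real.sin θ - u * Real.cos θ| ≤ ε) (h' : |Real.sin θ' - u' * Real.cos θ'| ≤ ε)
    (hε : ε ≤ 1 / 8) : |u' - u| / 4 - 2 * ε ≤ |Real.sin (θ' - θ)| := by
  have key : ∀ {a b : ℝ}, |b| ≤ 1 → |Real.sin a - b * Real.cos a| ≤ ε → 1 / 2 ≤ |Real.cos a| := by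
    intro a b hb hab
    by_contra hcon
    push Not at hcon
    have h1 : |Real.sin a| ≤ |Real.sin a - b * Real.cos a| + |b * Real.cos a| := by
      have := abs_add_le (Real.sin a - b * Real.cos a) (b * Real.cos a)
      rwa [sub_add_cancel] at this
    have h2 : |b * Real.cos a| ≤ 1 / 2 := by
      rw [abs_mul]
      have := mul_le_mul hb hcon.le (abs_nonneg _) zero_le_one
      linarith
    have h3 : |Real.sin a| ≤ 5 / 8 := by linarith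
    have h4 := Real.sin_sq_add_cos_sq a
    rw [← sq_abs (Real.sin a), ← sq_abs (Real.cos a)] at h4
    nlinarith [abs_nonneg (Real.sin a), abs_nonneg (Real.cos a)]
  have c1 := key hu h
  have c2 := key hu' h'
  have e : Real.sin (θ' - θ) = (u' - u) * (Real.cos θ * Real.cos θ') +
      ((Real.sin θ' - u' * Real.cos θ') * Real.cos θ -
        (Real.sin θ - u * Real.cos θ) * Real.cos θ') := by
    rw [Real.sin_sub]
    ring
  have h1 : |(u' - u) * (Real.cos θ * Real.cos θ')| ≥ |u' - u| / 4 := by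
    rw [abs_mul, abs_mul]
    have : 1 / 4 ≤ |Real.cos θ| * |Real.cos θ'| := by nlinarith
    nlinarith [abs_nonneg (u' - u)]
  have hε0 : 0 ≤ ε := (abs_nonneg _).trans h
  have h2 : |(Real.sin θ' - u' * Real.cos θ') * Real.cos θ -
      (Real.sin θ - u * Real.cos θ) * Real.cos θ'| ≤ 2 * ε := by
    refine (abs_sub _ _).trans ?_
    rw [abs_mul, abs_mul]
    have a1 := mul_le_mul h' (Real.abs_cos_le_one θ) (abs_nonneg _) hε0
    have a2 := mul_le_mul h (Real.abs_cos_le_one θ') (abs_nonneg _) hε0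
    linarith
  rw [e]
  have h3 := abs_sub_abs_le_abs_sub ((u' - u) * (Real.cos θ * Real.cos θ'))
    (-((Real.sin θ' - u' * Real.cos θ') * Real.cos θ -
        (Real.sin θ - u * Real.cos θ) * Real.cos θ'))
  rw [sub_neg_eq_add, abs_neg] at h3
  linarith

variable {Ω : Type} [Fintype Ω] {τ γ : Type*}

/-- the data of LIP, fixed shape -/
structure Fx (P : Law Ω) (T : Ω → τ) (C : Ω → γ) (B : Bx Ω) (u : Ω → ℝ) (z : Ω → ℤ)
    (k j kp ρ δ c : ℕ) : Prop where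
  kj : k ≤ j
  shp : ∀ ω, 0 < P.w ω → B.k ω = k ∧ B.j ω = j ∧ |B.θ ω| ≤ 4
  line : ∀ ω ω', 0 < P.w ω → 0 < P.w ω' → T ω' = T ω → C ω' = C ω → B.l ω' = B.l ω
  kpk : kp ≤ k + c
  sum : 2 * kp + ρ ≤ k + j + c
  hδ : δ ≤ ρ
  u1 : ∀ ω, 0 < P.w ω → |u ω| ≤ 1
  dir : ∀ ω, 0 < P.w ω → |Real.sin (B.θ ω) - u ω * Real.cos (B.θ ω)| * 2 ^ (ρ + kp) ≤
    2 ^ c * 2 ^ k
  far : ∀ ω ω', 0 < P.w ω → 0 < P.w ω' → T ω' = T ω → C ω' = C ω → 2 ≤ |z ω' - z ω| →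
    (1 / 2 : ℝ) ^ δ ≤ |u ω' - u ω|

section fx

variable {P : Law Ω} {T : Ω → τ} {C : Ω → γ} {B : Bx Ω} {u : Ω → ℝ} {z : Ω → ℤ}
  {k j kp ρ δ c : ℕ}

/-- the level of the angle of two copies with different slopes -/
theorem Fx.lvl (F : Fx P T C B u z k j kp ρ δ c) (hcase : k + δ + (c + 5) ≤ ρ + kp) {ω ω' : Ω}
    (hω : 0 < P.w ω) (hω' : 0 < P.w ω') (hT : T ω' = T ω) (hC : C ω' = C ω)
    (hz : 2 ≤ |z ω' - z ω|) : (1 / 2 : ℝ) ^ (δ + 3) ≤ |Real.sin (B.θ ω' - B.θ ω)| := by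
  have h1 := F.far ω ω' hω hω' hT hC hz
  have hdir : ∀ ω, 0 < P.w ω → |Real.sin (B.θ ω) - u ω * Real.cos (B.θ ω)| ≤
      (1 / 2 : ℝ) ^ (δ + 5) := by
    intro ω hω
    have h2 := F.dir ω hω
    have h3 : (2 : ℝ) ^ c * 2 ^ k = (1 / 2 : ℝ) ^ (δ + 5) * 2 ^ (c + k + (δ + 5)) := by
      rw [pow_add 2 (c + k) (δ + 5), pow_add 2 c k]
      have : (1 / 2 : ℝ) ^ (δ + 5) * 2 ^ (δ + 5) = 1 := by
        rw [← mul_pow]
        norm_num
      calc (2 : ℝ) ^ c * 2 ^ k = (2 ^ c * 2 ^ k) * ((1 / 2 : ℝ) ^ (δ + 5) * 2 ^ (δ + 5)) := by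
            rw [this, mul_one]
        _ = _ := by ring
    have h4 : (2 : ℝ) ^ (c + k + (δ + 5)) ≤ 2 ^ (ρ + kp) :=
      pow_le_pow_right₀ (by norm_num) (by omega)
    have h5 : (0 : ℝ) < 2 ^ (ρ + kp) := by positivity
    have h6 : (0 : ℝ) < (1 / 2 : ℝ) ^ (δ + 5) := by positivity
    rw [h3] at h2
    have h7 := mul_le_mul_of_nonneg_left h4 h6.le
    exact le_of_mul_le_mul_right (h2.trans h7) h5
  have h8 : (1 / 2 : ℝ) ^ (δ + 5) ≤ 1 / 8 := by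
    rw [pow_add]
    have : (1 / 2 : ℝ) ^ δ ≤ 1 := pow_le_one₀ (by norm_num) (by norm_num)
    norm_num
    linarith
  have h9 := sin_far (F.u1 ω hω) (F.u1 ω' hω') (hdir ω hω) (hdir ω' hω') h8
  have h10 : (1 / 2 : ℝ) ^ δ / 4 - 2 * (1 / 2 : ℝ) ^ (δ + 5) ≥ (1 / 2 : ℝ) ^ (δ + 3) := by
    rw [pow_add, pow_add]
    have : (0 : ℝ) < (1 / 2 : ℝ) ^ δ := by positivity
    norm_num
    linarith
  linarith

/-- the box itself -/
theorem Fx.self (F : Fx P T C B u z k j kp ρ δ c) {lam g : ℝ} (h0 : 0 ≤ lam) (h1 : lam ≤ 1)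
    (hg : g ≤ 2 * ((k : ℝ) - kp) + 2 * (c + 5)) :
    ∃ (Ω' : Type) (_ : Fintype Ω') (P' : Law Ω') (π : Ω' → Ω) (A : Bx Ω'),
      (∀ ω, P'.pr π ω = P.w ω) ∧
      (∀ ω, 0 < P'.w ω → A.l ω = B.l (π ω) ∧ |A.θ ω| ≤ 4 ∧ A.k ω ≤ A.j ω ∧ k ≤ A.k ω ∧ A.j ω ≤ j) ∧
      hc P T (fun ω => (B.lab ω, C ω)) + Real.log 2 * ((1 - lam) * (k + j) + 2 * lam * kp) +
          Real.log 2 * (lam * g) ≤
        hc P' (fun ω => T (π ω)) (fun ω => (A.lab ω, C (π ω))) + Real.log 2 * P'.ex (A.szl lam) +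
          (2 * c + 10) := by
  refine ⟨Ω, inferInstance, P, id, B, Stk.pr_id P, fun ω hω => ?_, ?_⟩
  · obtain ⟨a1, a2, a3⟩ := F.shp ω hω
    exact ⟨rfl, a3, by rw [a1, a2]; exact F.kj, a1.ge, a2.le⟩
  · have h2 : P.ex (B.szl lam) = (1 - lam) * (k + j) + 2 * lam * k := by
      rw [← P.ex_const ((1 - lam) * (k + j) + 2 * lam * k)]
      refine P.ex_congr fun ω hω => ?_
      obtain ⟨a1, a2, a3⟩ := F.shp ω hω
      unfold Bx.szl
      rw [a1, a2]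
      ring
    rw [h2]
    have hl2 : 0 < Real.log 2 := Real.log_pos (by norm_num)
    have hl2' : Real.log 2 ≤ 1 := by
      have := Real.log_two_lt_d9
      linarith
    have h3 : lam * g ≤ lam * (2 * ((k : ℝ) - kp) + 2 * (c + 5)) :=
      mul_le_mul_of_nonneg_left hg h0
    have hc0 : (0 : ℝ) ≤ c := Nat.cast_nonneg _
    have h4 : lam * (2 * ((k : ℝ) - kp) + 2 * (c + 5)) ≤ 2 * lam * (k - kp) + (2 * c + 10) := by
      nlinarith
    have h5 := mul_le_mul_of_nonneg_left (h3.trans h4) hl2.le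
    have h6 : Real.log 2 * (2 * c + 10 : ℝ) ≤ 2 * c + 10 := by nlinarith
    show hc P T (fun ω => (B.lab ω, C ω)) + _ + _ ≤ hc P T (fun ω => (B.lab ω, C ω)) + _ + _
    nlinarith

/-- first and second copy -/
def A0 {Ω : Type} (B : Bx Ω) : Bx (Fin (1 + 1) → Ω) := B.comp (fun w => w 0)
def A1 {Ω : Type} (B : Bx Ω) : Bx (Fin (1 + 1) → Ω) := B.comp (fun w => w 1)

variable {Q : Law (Fin (1 + 1) → Ω)}

theorem sup_of (hQ : ∀ w, Q.w w = cw P (fun ω => (T ω, C ω)) 1 w) (w : Fin (1 + 1) → Ω)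
    (hw : 0 < Q.w w) : T (w 1) = T (w 0) ∧ C (w 1) = C (w 0) ∧ 0 < P.w (w 0) ∧ 0 < P.w (w 1) := by
  obtain ⟨a1, a2⟩ := cw_supp hQ hw
  have a3 := a1 1
  simp only [Prod.mk.injEq] at a3
  exact ⟨a3.1, a3.2, a2 0, a2 1⟩

/-- the entropies of the copies -/
theorem ent_of (hQ : ∀ w, Q.w w = cw P (fun ω => (T ω, C ω)) 1 w) :
    hc Q (fun w => T (w 0)) (fun w => ((A0 B).lab w, C (w 0))) =
      hc P T (fun ω => (B.lab ω, C ω)) ∧
    hc Q (fun w => T (w 0)) (fun w => ((A1 B).lab w, C (w 0))) =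
      hc P T (fun ω => (B.lab ω, C ω)) ∧
    mi Q (A0 B).lab (A1 B).lab (fun w => (T (w 0), C (w 0))) = 0 := by
  refine ⟨cw_hc hQ 0 T (fun ω => (B.lab ω, C ω)), ?_, ?_⟩
  · rw [← cw_hc hQ 1 T (fun ω => (B.lab ω, C ω))]
    refine hc_congr Q ?_ ?_ ?_ ?_
    · intro w w' hw hw' e
      have e1 : T (w 1) = T (w' 1) := congrArg Prod.fst e
      show T (w 0) = T (w' 0)
      rw [← (sup_of hQ w hw).1, ← (sup_of hQ w' hw').1, e1]
    · intro w w' hw hw' e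
      have e1 : T (w 0) = T (w' 0) := congrArg Prod.fst e
      show T (w 1) = T (w' 1)
      rw [(sup_of hQ w hw).1, (sup_of hQ w' hw').1, e1]
    · intro w w' hw hw' e
      have e1 : B.lab (w 1) = B.lab (w' 1) := congrArg Prod.fst e
      have e3 : C (w 1) = C (w' 1) := congrArg Prod.snd e
      show (B.lab (w 1), C (w 0)) = (B.lab (w' 1), C (w' 0))
      rw [← (sup_of hQ w hw).2.1, ← (sup_of hQ w' hw').2.1, e1, e3]
    · intro w w' hw hw' e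
      have e1 : B.lab (w 1) = B.lab (w' 1) := congrArg Prod.fst e
      have e3 : C (w 0) = C (w' 0) := congrArg Prod.snd e
      show (B.lab (w 1), C (w 1)) = (B.lab (w' 1), C (w' 1))
      rw [(sup_of hQ w hw).2.1, (sup_of hQ w' hw').2.1, e1, e3]
  · have f1 : hc Q (A0 B).lab (fun w => (T (w 0), C (w 0))) = hc P B.lab (fun ω => (T ω, C ω)) :=
      cw_hc hQ 0 B.lab (fun ω => (T ω, C ω))
    have f2 : hc Q (A0 B).lab (fun w => ((A1 B).lab w, (T (w 0), C (w 0)))) =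
        hc P B.lab (fun ω => (T ω, C ω)) :=
      cw_indep hQ 0 B.lab (fun w => (A1 B).lab w) (fun w w' h => by
        have h1 : w 1 = w' 1 := h 1 (by decide)
        show B.lab (w 1) = B.lab (w' 1)
        rw [h1])
    unfold mi
    rw [f1, f2, sub_self]

theorem Fx.shpQ (F : Fx P T C B u z k j kp ρ δ c)
    (hQ : ∀ w, Q.w w = cw P (fun ω => (T ω, C ω)) 1 w) (w : Fin (1 + 1) → Ω) (hw : 0 < Q.w w) :
    (A0 B).k w = k ∧ (A0 B).j w = j ∧ |(A0 B).θ w| ≤ 4 ∧ (A1 B).k w = k ∧ (A1 B).j w = j ∧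
      |(A1 B).θ w| ≤ 4 ∧ (A1 B).l w = (A0 B).l w := by
  obtain ⟨b1, b2, b3, b4⟩ := sup_of hQ w hw
  obtain ⟨c1, c2, c3⟩ := F.shp _ b3
  obtain ⟨d1, d2, d3⟩ := F.shp _ b4
  exact ⟨c1, c2, c3, d1, d2, d3, F.line _ _ b3 b4 b1 b2⟩

/-- sizes of the truncated meet and join -/
theorem szl_pos {Ω₂ : Type} {A A' : Bx Ω₂} {cap k j : ℕ} {w : Ω₂} (lam : ℝ) (h : lv A A' w ≤ cap)
    (b1 : A.k w = k) (b2 : A.j w = j) (hs : lv A A' w ≤ j) :
    (mtT cap A A').szl lam w + (jnT cap A A').szl lam w =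
      2 * ((1 - lam) * (k + j)) + 2 * lam * (k + j - lv A A' w) := by
  have m1 : (mtT cap A A').szl lam w = (1 + lam) * ((j : ℝ) - lv A A' w) + (1 - lam) * j := by
    show (1 + lam) * ((if lv A A' w ≤ cap then A.j w - lv A A' w else A.k w : ℕ) : ℝ) +
      (1 - lam) * (A.j w : ℝ) = _
    rw [if_pos h, b2, Nat.cast_sub hs]
  have j1 : (jnT cap A A').szl lam w = (1 + lam) * k + (1 - lam) * ((k : ℝ) + lv A A' w) := by
    show (1 + lam) * ((if lv A A' w ≤ cap then A.k w else A'.k w : ℕ) : ℝ) +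
      (1 - lam) * ((if lv A A' w ≤ cap then A.k w + lv A A' w else A'.j w : ℕ) : ℝ) = _
    rw [if_pos h, if_pos h, b1]
    push_cast
    ring
  rw [m1, j1]
  ring

theorem szl_neg {Ω₂ : Type} {A A' : Bx Ω₂} {cap k j : ℕ} {w : Ω₂} (lam : ℝ)
    (h : ¬ lv A A' w ≤ cap) (b1 : A.k w = k) (b2 : A.j w = j) (b3 : A'.k w = k) (b4 : A'.j w = j) :
    (mtT cap A A').szl lam w + (jnT cap A A').szl lam w =
      2 * ((1 - lam) * (k + j)) + 4 * lam * k := by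
  have m1 : (mtT cap A A').szl lam w = (1 + lam) * k + (1 - lam) * j := by
    show (1 + lam) * ((if lv A A' w ≤ cap then A.j w - lv A A' w else A.k w : ℕ) : ℝ) +
      (1 - lam) * (A.j w : ℝ) = _
    rw [if_neg h, b1, b2]
  have j1 : (jnT cap A A').szl lam w = (1 + lam) * k + (1 - lam) * j := by
    show (1 + lam) * ((if lv A A' w ≤ cap then A.k w else A'.k w : ℕ) : ℝ) +
      (1 - lam) * ((if lv A A' w ≤ cap then A.k w + lv A A' w else A'.j w : ℕ) : ℝ) = _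
    rw [if_neg h, if_neg h, b3, b4]
  rw [m1, j1]
  ring

/-- shapes of the truncated join -/
theorem jnT_shp {Ω₂ : Type} {A A' : Bx Ω₂} {cap k j : ℕ} {w : Ω₂} (hkj : k ≤ j)
    (b1 : A.k w = k) (b2 : A.j w = j) (b3 : |A.θ w| ≤ 4) (b4 : A'.k w = k) (b5 : A'.j w = j)
    (b6 : |A'.θ w| ≤ 4) (b7 : A'.l w = A.l w) :
    (jnT cap A A').l w = A.l w ∧ |(jnT cap A A').θ w| ≤ 4 ∧ (jnT cap A A').k w ≤ (jnT cap A A').j w ∧
      k ≤ (jnT cap A A').k w ∧ (jnT cap A A').j w ≤ j := by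
  have hs1 : lv A A' w ≤ j - k := by
    have := lv_le A A' w
    rwa [b1, b2] at this
  unfold jnT
  simp only
  by_cases hlv : lv A A' w ≤ cap
  · simp only [if_pos hlv, b1]
    exact ⟨trivial, b3, Nat.le_add_right _ _, le_rfl, by omega⟩
  · simp only [if_neg hlv, b4, b5]
    exact ⟨b7, b6, hkj, le_rfl, le_rfl⟩

theorem mtT_shp {Ω₂ : Type} {A A' : Bx Ω₂} {cap k j : ℕ} {w : Ω₂} (hkj : k ≤ j)
    (b1 : A.k w = k) (b2 : A.j w = j) (b3 : |A.θ w| ≤ 4) :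
    (mtT cap A A').l w = A.l w ∧ |(mtT cap A A').θ w| ≤ 4 ∧ (mtT cap A A').k w ≤ (mtT cap A A').j w ∧
      k ≤ (mtT cap A A').k w ∧ (mtT cap A A').j w ≤ j := by
  have hs1 : lv A A' w ≤ j - k := by
    have := lv_le A A' w
    rwa [b1, b2] at this
  unfold mtT
  simp only
  by_cases hlv : lv A A' w ≤ cap
  · simp only [if_pos hlv, b2]
    exact ⟨trivial, b3, Nat.sub_le _ _, by omega, le_rfl⟩
  · simp only [if_neg hlv, b1, b2]
    exact ⟨trivial, b3, hkj, le_rfl, le_rfl⟩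

/-- sizes, pointwise -/
theorem Fx.szw (F : Fx P T C B u z k j kp ρ δ c) (hcase : k + δ + (c + 5) ≤ ρ + kp)
    (hQ : ∀ w, Q.w w = cw P (fun ω => (T ω, C ω)) 1 w) {lam : ℝ} (h0 : 0 ≤ lam) (h1 : lam ≤ 1)
    (w : Fin (1 + 1) → Ω) (hw : 0 < Q.w w) :
    2 * ((1 - lam) * (k + j) + 2 * lam * kp) +
      2 * (lam * (((ρ : ℝ) - δ) * (1 - Law.ind (|z (w 1) - z (w 0)| ≤ 1)))) ≤
      (mtT (δ + 6) (A0 B) (A1 B)).szl lam w + (jnT (δ + 6) (A0 B) (A1 B)).szl lam w +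
        (4 * c + 12) := by
  classical
  obtain ⟨b1, b2, b3, b4, b5, b6, b7⟩ := F.shpQ hQ w hw
  obtain ⟨s1, s2, s3, s4⟩ := sup_of hQ w hw
  have hc0 : (0 : ℝ) ≤ c := Nat.cast_nonneg _
  have hR : 0 ≤ (ρ : ℝ) - δ := by
    have : ((δ : ℕ) : ℝ) ≤ ρ := by exact_mod_cast F.hδ
    linarith
  have hk1 : (kp : ℝ) ≤ k + c := by exact_mod_cast F.kpk
  have hsum : 2 * (kp : ℝ) + ρ ≤ k + j + c := by exact_mod_cast F.sum
  by_cases hlv : lv (A0 B) (A1 B) w ≤ δ + 6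
  · have hs1 : lv (A0 B) (A1 B) w ≤ j - k := by
      have := lv_le (A0 B) (A1 B) w
      rwa [b1, b2] at this
    have hi : 1 - Law.ind (|z (w 1) - z (w 0)| ≤ 1) ≤ 1 := by
      unfold Law.ind
      split_ifs <;> norm_num
    have hs : (lv (A0 B) (A1 B) w : ℝ) ≤ δ + 6 := by exact_mod_cast hlv
    have g1 : lam * (((ρ : ℝ) - δ) * (1 - Law.ind (|z (w 1) - z (w 0)| ≤ 1))) ≤
        lam * (((ρ : ℝ) - δ) * 1) :=
      mul_le_mul_of_nonneg_left (mul_le_mul_of_nonneg_left hi hR) h0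
    have g2 : 0 ≤ lam * ((k : ℝ) + j + c - (2 * kp + ρ)) := mul_nonneg h0 (by linarith)
    have g3 : 0 ≤ lam * ((δ : ℝ) + 6 - lv (A0 B) (A1 B) w) := mul_nonneg h0 (by linarith)
    have g4 : 0 ≤ (1 - lam) * (c + 6 : ℝ) := mul_nonneg (by linarith) (by linarith)
    rw [szl_pos lam hlv b1 b2 (hs1.trans (Nat.sub_le _ _))]
    linarith
  · have hz1 : Law.ind (|z (w 1) - z (w 0)| ≤ 1) = 1 := by
      refine Law.ind_of ?_
      by_contra hcon
      have hz2 : 2 ≤ |z (w 1) - z (w 0)| := by omega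
      have h2 := F.lvl hcase s3 s4 s1 s2 hz2
      have h3 : |Real.sin ((A1 B).θ w - (A0 B).θ w)| ≤ 8 * (1 / 2 : ℝ) ^ lv (A0 B) (A1 B) w :=
        lv_spec (A0 B) (A1 B) w
      have h4 : (1 / 2 : ℝ) ^ (δ + 3) ≤ 8 * (1 / 2 : ℝ) ^ lv (A0 B) (A1 B) w := h2.trans h3
      have h5 : (1 / 2 : ℝ) ^ lv (A0 B) (A1 B) w ≤ (1 / 2 : ℝ) ^ (δ + 7) :=
        pow_le_pow_of_le_one (by norm_num) (by norm_num) (by omega)
      have h6 : (1 / 2 : ℝ) ^ (δ + 7) = (1 / 2 : ℝ) ^ (δ + 3) / 16 := by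
        rw [pow_add, pow_add]
        norm_num
        ring
      have h7 : (0 : ℝ) < (1 / 2 : ℝ) ^ (δ + 3) := by positivity
      linarith
    have g2 : 0 ≤ lam * ((k : ℝ) + c - kp) := mul_nonneg h0 (by linarith)
    have g4 : 0 ≤ (1 - lam) * (c : ℝ) := mul_nonneg (by linarith) hc0
    rw [szl_neg lam hlv b1 b2 b4 b5, hz1, sub_self, mul_zero, mul_zero, mul_zero]
    linarith

/-- sizes, average -/
theorem Fx.szs (F : Fx P T C B u z k j kp ρ δ c) (hcase : k + δ + (c + 5) ≤ ρ + kp)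
    (hQ : ∀ w, Q.w w = cw P (fun ω => (T ω, C ω)) 1 w) {lam : ℝ} (h0 : 0 ≤ lam) (h1 : lam ≤ 1) :
    2 * ((1 - lam) * (k + j) + 2 * lam * kp) +
      2 * (lam * (((ρ : ℝ) - δ) * (1 - 3 * col P z (fun ω => (T ω, C ω))))) ≤
      Q.ex ((mtT (δ + 6) (A0 B) (A1 B)).szl lam) + Q.ex ((jnT (δ + 6) (A0 B) (A1 B)).szl lam) +
        (4 * c + 12) := by
  classical
  have hR : 0 ≤ (ρ : ℝ) - δ := by
    have : ((δ : ℕ) : ℝ) ≤ ρ := by exact_mod_cast F.hδ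
    linarith
  have h2 := Q.ex_mono (F.szw hcase hQ h0 h1)
  have h3 : Q.ex (fun w => (mtT (δ + 6) (A0 B) (A1 B)).szl lam w +
      (jnT (δ + 6) (A0 B) (A1 B)).szl lam w + (4 * (c : ℝ) + 12)) =
      Q.ex ((mtT (δ + 6) (A0 B) (A1 B)).szl lam) + Q.ex ((jnT (δ + 6) (A0 B) (A1 B)).szl lam) +
        (4 * c + 12) := by
    rw [Q.ex_add, Q.ex_add, Q.ex_const]
  have h4 : Q.ex (fun w => 2 * ((1 - lam) * (k + j) + 2 * lam * kp) +
      2 * (lam * (((ρ : ℝ) - δ) * (1 - Law.ind (|z (w 1) - z (w 0)| ≤ 1))))) =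
      2 * ((1 - lam) * (k + j) + 2 * lam * kp) +
      2 * (lam * (((ρ : ℝ) - δ) * (1 - Q.ex (fun w => Law.ind (|z (w 1) - z (w 0)| ≤ 1))))) := by
    rw [Q.ex_add, Q.ex_const, Q.ex_const_mul, Q.ex_const_mul, Q.ex_const_mul, Q.ex_sub, Q.ex_const]
  rw [h3, h4] at h2
  have hnear := near_le hQ z
  have h5 : lam * (((ρ : ℝ) - δ) * (1 - 3 * col P z (fun ω => (T ω, C ω)))) ≤
      lam * (((ρ : ℝ) - δ) * (1 - Q.ex (fun w => Law.ind (|z (w 1) - z (w 0)| ≤ 1)))) :=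
    mul_le_mul_of_nonneg_left (mul_le_mul_of_nonneg_left (by linarith) hR) h0
  linarith

/-- the real arithmetic -/
theorem arith {a b g m j em ej L2 c Lc : ℝ} (hL : 0 < L2) (hL' : L2 ≤ 1) (hc : 0 ≤ c)
    (h1 : a + a ≤ m + j + 0 + 103 + 3 * Lc) (h2 : 2 * b + 2 * g ≤ em + ej + (4 * c + 12))
    (hLc : 0 ≤ Lc) :
    2 * (a + L2 * b + L2 * g) ≤ (m + L2 * em) + (j + L2 * ej) + 2 * (2 * c + 60 + 2 * Lc) := by
  have h3 := mul_le_mul_of_nonneg_left h2 hL.le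
  have h4 : L2 * (4 * c + 12) ≤ 4 * c + 12 := by
    have : 0 ≤ 4 * c + 12 := by linarith
    nlinarith
  have h5 : L2 * (2 * b + 2 * g) = 2 * (L2 * b) + 2 * (L2 * g) := by ring
  have h6 : L2 * (em + ej + (4 * c + 12)) = L2 * em + L2 * ej + L2 * (4 * c + 12) := by ring
  rw [h5, h6] at h3
  linarith

/-- the pair of values -/
theorem Fx.pair (F : Fx P T C B u z k j kp ρ δ c) (hcase : k + δ + (c + 5) ≤ ρ + kp)
    (hQ : ∀ w, Q.w w = cw P (fun ω => (T ω, C ω)) 1 w) {lam : ℝ} (h0 : 0 ≤ lam) (h1 : lam ≤ 1) :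
    2 * (hc P T (fun ω => (B.lab ω, C ω)) +
      Real.log 2 * ((1 - lam) * (k + j) + 2 * lam * kp) +
      Real.log 2 * (lam * (((ρ : ℝ) - δ) * (1 - 3 * col P z (fun ω => (T ω, C ω)))))) ≤
      (hc Q (fun w => T (w 0)) (fun w => ((mtT (δ + 6) (A0 B) (A1 B)).lab w, C (w 0))) +
        Real.log 2 * Q.ex ((mtT (δ + 6) (A0 B) (A1 B)).szl lam)) +
      (hc Q (fun w => T (w 0)) (fun w => ((jnT (δ + 6) (A0 B) (A1 B)).lab w, C (w 0))) +
        Real.log 2 * Q.ex ((jnT (δ + 6) (A0 B) (A1 B)).szl lam)) +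
      2 * (2 * c + 60 + 2 * Real.log (δ + 7)) := by
  have hsub := sub_finT Q (δ + 6) (A0 B) (A1 B) (fun w => T (w 0)) (fun w => C (w 0))
    (fun w hw => by
      obtain ⟨b1, b2, b3, b4, b5, b6, b7⟩ := F.shpQ hQ w hw
      refine ⟨?_, by rw [b1, b4], by rw [b2, b5], by rw [b1, b2]; exact F.kj, trivial, b3, b6⟩
      rw [b7]
      exact Nr.refl (by positivity) _)
  obtain ⟨e1, e2, e3⟩ := ent_of (B := B) hQ
  rw [e1, e2, e3] at hsub
  have h5 : Real.log (((δ + 6 : ℕ) : ℝ) + 1) = Real.log ((δ : ℝ) + 7) := by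
    congr 1
    push_cast
    ring
  rw [h5] at hsub
  have hl2 : 0 < Real.log 2 := Real.log_pos (by norm_num)
  have hl2' : Real.log 2 ≤ 1 := by
    have := Real.log_two_lt_d9
    linarith
  exact arith hl2 hl2' (Nat.cast_nonneg _) hsub (F.szs hcase hQ h0 h1)
    (Real.log_nonneg (by linarith [Nat.cast_nonneg (α := ℝ) δ]))

/-- **LIP, fixed shape** -/
theorem lip_fix (F : Fx P T C B u z k j kp ρ δ c) {lam : ℝ} (h0 : 0 ≤ lam) (h1 : lam ≤ 1) :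
    ∃ (Ω' : Type) (_ : Fintype Ω') (P' : Law Ω') (π : Ω' → Ω) (A : Bx Ω'),
      (∀ ω, P'.pr π ω = P.w ω) ∧
      (∀ ω, 0 < P'.w ω → A.l ω = B.l (π ω) ∧ |A.θ ω| ≤ 4 ∧ A.k ω ≤ A.j ω ∧ k ≤ A.k ω ∧ A.j ω ≤ j) ∧
      hc P T (fun ω => (B.lab ω, C ω)) + Real.log 2 * ((1 - lam) * (k + j) + 2 * lam * kp) +
          Real.log 2 * (lam * (((ρ : ℝ) - δ) * max 0 (1 - 3 * col P z (fun ω => (T ω, C ω))))) ≤
        hc P' (fun ω => T (π ω)) (fun ω => (A.lab ω, C (π ω))) + Real.log 2 * P'.ex (A.szl lam) +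
          (2 * c + 60 + 2 * Real.log (δ + 7)) := by
  classical
  have hc0 : (0 : ℝ) ≤ c := Nat.cast_nonneg _
  have hδ0 : 0 ≤ Real.log ((δ : ℝ) + 7) := Real.log_nonneg (by linarith [Nat.cast_nonneg (α := ℝ) δ])
  have hR : 0 ≤ (ρ : ℝ) - δ := by
    have : ((δ : ℕ) : ℝ) ≤ ρ := by exact_mod_cast F.hδ
    linarith
  have hcol0 : 0 ≤ col P z (fun ω => (T ω, C ω)) :=
    P.ex_nonneg fun ω _ => div_nonneg (P.pr_nonneg _ _) (P.pr_nonneg _ _)
  set x : ℝ := max 0 (1 - 3 * col P z (fun ω => (T ω, C ω))) with hx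
  have hx0 : 0 ≤ x := le_max_left _ _
  have hx1 : x ≤ 1 := max_le zero_le_one (by linarith)
  -- first case : the box leaves the direction of the slab
  by_cases hcase : k + δ + (c + 5) ≤ ρ + kp
  swap
  · have hg : ((ρ : ℝ) - δ) * x ≤ 2 * ((k : ℝ) - kp) + 2 * (c + 5) := by
      have h2 : ((ρ + kp : ℕ) : ℝ) ≤ ((k + δ + (c + 5) : ℕ) : ℝ) := by exact_mod_cast (by omega)
      push_cast at h2
      have h3 : ((ρ : ℝ) - δ) * x ≤ (ρ : ℝ) - δ := by nlinarith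
      linarith
    obtain ⟨Ω', iF, P', π, A, a1, a2, a3⟩ := F.self h0 h1 hg
    exact ⟨Ω', iF, P', π, A, a1, a2, by linarith⟩
  -- second case : nothing to prove
  by_cases hcol : 1 - 3 * col P z (fun ω => (T ω, C ω)) ≤ 0
  · have hxz : x = 0 := max_eq_left hcol
    have hg : ((ρ : ℝ) - δ) * x ≤ 2 * ((k : ℝ) - kp) + 2 * (c + 5) := by
      rw [hxz, mul_zero]
      have h2 : ((kp : ℕ) : ℝ) ≤ ((k + c : ℕ) : ℝ) := by exact_mod_cast F.kpk
      push_cast at h2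
      linarith
    obtain ⟨Ω', iF, P', π, A, a1, a2, a3⟩ := F.self h0 h1 hg
    exact ⟨Ω', iF, P', π, A, a1, a2, by linarith⟩
  push Not at hcol
  have hxe : x = 1 - 3 * col P z (fun ω => (T ω, C ω)) := max_eq_right hcol.le
  obtain ⟨Q, hQ⟩ := cw_exists P (fun ω => (T ω, C ω)) 1
  have hfin := F.pair hcase hQ h0 h1
  rw [← hxe] at hfin
  rcases le_total (hc Q (fun w => T (w 0)) (fun w => ((mtT (δ + 6) (A0 B) (A1 B)).lab w, C (w 0))) +
        Real.log 2 * Q.ex ((mtT (δ + 6) (A0 B) (A1 B)).szl lam))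
    (hc Q (fun w => T (w 0)) (fun w => ((jnT (δ + 6) (A0 B) (A1 B)).lab w, C (w 0))) +
        Real.log 2 * Q.ex ((jnT (δ + 6) (A0 B) (A1 B)).szl lam)) with hle | hle
  · refine ⟨Fin (1 + 1) → Ω, inferInstance, Q, fun w => w 0, jnT (δ + 6) (A0 B) (A1 B),
      cw_marg hQ 0, fun w hw => ?_, by linarith⟩
    obtain ⟨b1, b2, b3, b4, b5, b6, b7⟩ := F.shpQ hQ w hw
    exact jnT_shp F.kj b1 b2 b3 b4 b5 b6 b7
  · refine ⟨Fin (1 + 1) → Ω, inferInstance, Q, fun w => w 0, mtT (δ + 6) (A0 B) (A1 B),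
      cw_marg hQ 0, fun w hw => ?_, by linarith⟩
    obtain ⟨b1, b2, b3, b4, b5, b6, b7⟩ := F.shpQ hQ w hw
    exact mtT_shp F.kj b1 b2 b3

end fx

end Vale.Agent.P127.U.LipO
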