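import Vale.Agent.P127.U.Lam.PathN
import Vale.Agent.P127.U.Lam.PathM
import Vale.Agent.P127.U.Lam.PathV
import Vale.Agent.P127.U.Lam.RedA

/-!
# P127 / U / H560 : LIP at a state, the change of coordinates (helper560)

* `geo` : a label `V` of the state `(a + w, r + R)` gives a box `B` of the line of the state `(a, r)`.
-/

set_option autoImplicit false

namespace Vale.Agent.P127.U.LipS

open Vale.Agent.P127 Vale.Agent.P127.Stk Vale.Agent.P127.U Apx Pf

/-- the constant of the change of coordinates -/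
noncomputable def cG1 : ℝ :=
  Kv 3 + 4 * Real.log 13 + (4 * Real.log 13 + (Real.log 81 + (Red.cL 4 + 2 * Real.log 5)))

variable {Ω : Type} [Fintype Ω]

/-- the shapes -/
def shp (V B : Bx Ω) : Ω → ℕ × ℕ × ℕ × ℕ := fun ω => (V.k ω, V.j ω, B.k ω, B.j ω)

theorem geo {P : Law Ω} {a r w R n : ℕ} {l : Ω → Ln} {t v : Ω → ℝ} (hg : GoodF P l t)
    (V : Bx Ω) (hn : (a + w) + (r + R) ≤ n)
    (hV : ∀ ω, 0 < P.w ω → Sub 2 (tbx (n - (a + w) - (r + R)) (lnS (a + w) (r + R) l t v)) V ω) :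
    ∃ B : Bx Ω,
      (∀ ω, 0 < P.w ω → B.l ω = lnS a r l t v ω ∧ |B.θ ω| ≤ 4 ∧ B.k ω ≤ B.j ω ∧
        B.j ω ≤ n - a - r - w ∧
        B.k ω + B.j ω ≤ V.k ω + V.j ω + R + 2 ∧ V.k ω + V.j ω + R ≤ B.k ω + B.j ω + 6 ∧
        V.k ω ≤ B.k ω + 2 ∧ B.k ω ≤ V.k ω + R + 2 ∧ V.j ω ≤ B.j ω + 2 ∧ B.j ω ≤ V.j ω + R + 2 ∧
        |Real.sin (B.θ ω) - qa R (tfF r v ω) * Real.cos (B.θ ω)| * (2:ℝ) ^ (R + V.k ω) ≤
          2 ^ 3 * 2 ^ B.k ω) ∧
      ∀ {τ : Type*} (T : Ω → τ),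
        Stk.hc P T (fun ω => (V.lab ω, (cell (a + w) (r + R) l t v ω, ()))) ≤
          Stk.hc P T (fun ω => ((B.lab ω, (cell a r l t v ω, ())), shp V B ω)) + cG1 := by
  have hVk : ∀ ω, 0 < P.w ω → V.l ω = lnS (a + w) (r + R) l t v ω ∧ |V.θ ω| ≤ 4 ∧ V.k ω ≤ V.j ω ∧
      V.j ω + R ≤ (n - a - r - w) + 0 := by
    intro ω hω
    obtain ⟨h1, h2, h3, h4, h5, h6⟩ := hV ω hω
    refine ⟨h1, h2, h3, ?_⟩
    have h7 : V.j ω ≤ n - (a + w) - (r + R) := h5
    omega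
  obtain ⟨W, w0, w1, w2, -⟩ := lab_unst_state P a r w R (n - a - r - w) 0 l t v
    (fun _ => ()) V hVk
  have hW : ∀ ω, 0 < P.w ω → W.l ω = blF w (lnS a r l t v) (tfF a t) ω ∧ |W.θ ω| ≤ 4 ∧
      W.k ω ≤ W.j ω := by
    intro ω hω
    obtain ⟨h1, h2, -⟩ := w1 ω hω
    exact ⟨congrFun w0 ω, by linarith, h2⟩
  have hgS : GoodF P (lnS a r l t v) (tfF a t) := fun ω _ =>
    ⟨st1_ok a r (l ω) (t ω) (v ω), Int.fract_nonneg _, (Int.fract_lt_one _).le⟩
  set B : Bx Ω := Red.lev0 (lnS a r l t v) W with hB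
  refine ⟨B, ?_, ?_⟩
  · intro ω hω
    obtain ⟨h1, h2, h3, h4, h5, h6, h7, h8, h9, h10⟩ := w1 ω hω
    refine ⟨rfl, ?_, h2, h3, h4, ?_, ?_, h7, ?_, h9, ?_⟩
    · show |W.θ ω| ≤ 4
      linarith
    · exact h5
    · exact h6
    · exact h8
    · exact h10
  · intro τ T
    set D : Ω → _ := fun ω => (V.lab ω, (cell (a + w) (r + R) l t v ω, ())) with hD
    -- the label `W`
    have k1 : Stk.hc P W.lab D ≤ Kv 3 + 4 * Real.log 13 := w2
    -- inner and coarse cells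
    set I : Ω → _ := fun ω => (cell w R (lnS a r l t v) (tfF a t) (tfF r v) ω,
      (cell a r l t v ω, ())) with hI
    have k2 : Stk.hc P I (fun ω => (W.lab ω, D ω)) ≤ 4 * Real.log 13 := by
      refine le_trans (Stk.hc_mono_right P _ ?_) (hc_inner P a w r R l t v (fun _ => ()))
      intro ω ω' _ _ e
      exact congrArg (fun q => q.2.2) e
    -- the point
    have k3 : Stk.hc P (fun ω => pq w (ptF (lnS a r l t v) (tfF a t) ω))
        (fun ω => (I ω, (W.lab ω, D ω))) ≤ Real.log 81 := by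
      have h1 := hc_pq_cell P w R (lnS a r l t v) (tfF a t) (tfF r v)
        (fun ω => (W.lab ω, (I ω, D ω))) (fun ω _ => by
          show |Int.fract _| ≤ 1
          rw [abs_of_nonneg (Int.fract_nonneg _)]
          exact (Int.fract_lt_one _).le) (fun ω _ => st1_ok a r (l ω) (t ω) (v ω))
      refine le_trans (Stk.hc_mono_right P _ ?_) h1
      intro ω ω' _ _ e
      simp only [Prod.mk.injEq, hI] at e ⊢
      exact ⟨e.1.1, e.2.1, e.1, e.2.2⟩
    -- the box `B`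
    have k4 : Stk.hc P B.lab (fun ω => (pq w (ptF (lnS a r l t v) (tfF a t) ω),
        (I ω, (W.lab ω, D ω)))) ≤ Red.cL 4 + 2 * Real.log 5 := by
      refine le_trans (Stk.hc_mono_right P _ ?_) (Red.ext_le P hgS hW (fun ω => (I ω, D ω)))
      intro ω ω' _ _ e
      simp only [Prod.mk.injEq] at e ⊢
      exact ⟨e.2.2.1, e.1, e.2.1, e.2.2.2⟩
    set Y : Ω → _ := fun ω => ((B.lab ω, (cell a r l t v ω, ())), shp V B ω) with hY
    have g1 := Stk.hc_le_add' P Y W.lab D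
    have g2 := Stk.hc_le_add' P Y I (fun ω => (W.lab ω, D ω))
    have g3 := Stk.hc_le_add' P Y (fun ω => pq w (ptF (lnS a r l t v) (tfF a t) ω))
      (fun ω => (I ω, (W.lab ω, D ω)))
    have g4 := Stk.hc_le_add' P Y B.lab (fun ω => (pq w (ptF (lnS a r l t v) (tfF a t) ω),
        (I ω, (W.lab ω, D ω))))
    have g5 : Stk.hc P Y (fun ω => (B.lab ω, (pq w (ptF (lnS a r l t v) (tfF a t) ω),
        (I ω, (W.lab ω, D ω))))) = 0 := by
      refine Stk.hc_zero P fun ω ω' _ _ e => ?_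
      have e1 : B.lab ω = B.lab ω' := congrArg Prod.fst e
      have e2 : I ω = I ω' := congrArg (fun q => q.2.2.1) e
      have e3 : V.lab ω = V.lab ω' := congrArg (fun q => q.2.2.2.2.1) e
      have e4 : cell a r l t v ω = cell a r l t v ω' := congrArg (fun q => q.2.1) e2
      have e5 : V.k ω = V.k ω' := congrArg Prod.fst e3
      have e6 : V.j ω = V.j ω' := congrArg (fun q => q.2.1) e3
      have e7 : B.k ω = B.k ω' := congrArg Prod.fst e1
      have e8 : B.j ω = B.j ω' := congrArg (fun q => q.2.1) e1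
      simp only [hY, shp, Prod.mk.injEq]
      exact ⟨⟨e1, e4, trivial⟩, e5, e6, e7, e8⟩
    have g6 := Stk.hc_le_add' P T Y D
    have g7 : Stk.hc P T (fun ω => (Y ω, D ω)) ≤ Stk.hc P T Y :=
      Stk.hc_mono_right P _ fun ω ω' _ _ e => congrArg Prod.fst e
    unfold cG1
    linarith

end Vale.Agent.P127.U.LipS
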