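import Vale.Agent.P127.U.H560.LipS
import Vale.Agent.P127.U.Lam.LipS2
import Vale.Agent.P127.U.Lam.LiftT

/-!
# P127 / U / H560 : LIP at a state, one shape and the number of shapes (helper560)

* `fib` : number of shapes with given extreme exponents;
* `one_shape` : the competitor for one value of the shapes.
-/

set_option autoImplicit false

namespace Vale.Agent.P127.U.LipS

open Vale.Agent.P127 Vale.Agent.P127.Stk Vale.Agent.P127.U Apx Pf Mic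

/-- lower exponent -/
def kkF (e : ℕ × ℕ × ℕ × ℕ) : ℕ := e.1 - 2

/-- upper exponent -/
def jjF (R n1 : ℕ) (e : ℕ × ℕ × ℕ × ℕ) : ℕ := min (e.2.1 + R + 2) n1

/-- the relations between the exponents -/
structure Ex (w R n1 : ℕ) (e : ℕ × ℕ × ℕ × ℕ) : Prop where
  xy : e.1 ≤ e.2.1
  y : e.2.1 + w + R ≤ n1
  zq : e.2.2.1 ≤ e.2.2.2
  q : e.2.2.2 + w ≤ n1
  s1 : e.2.2.1 + e.2.2.2 ≤ e.1 + e.2.1 + R + 2
  s2 : e.1 + e.2.1 + R ≤ e.2.2.1 + e.2.2.2 + 6
  xz : e.1 ≤ e.2.2.1 + 2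
  zx : e.2.2.1 ≤ e.1 + R + 2
  qy : e.2.2.2 ≤ e.2.1 + R + 2

theorem fib (w R n1 k j : ℕ) : ∃ F : Finset (ℕ × ℕ × ℕ × ℕ), F.card ≤ 81 * (R + 5) ∧
    ∀ e, Ex w R n1 e → kkF e = k → jjF R n1 e = j → e ∈ F := by
  refine ⟨(Finset.Icc k (k + 2) ×ˢ (Finset.Icc (j - R - 2) (j - R) ×ˢ
    (Finset.Icc k (k + R + 4) ×ˢ Finset.range 9))).image
    (fun e => (e.1, e.2.1, e.2.2.1, e.1 + e.2.1 + R + 2 - e.2.2.1 - e.2.2.2)), ?_, ?_⟩
  · refine Finset.card_image_le.trans ?_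
    rw [Finset.card_product, Finset.card_product, Finset.card_product, Nat.card_Icc, Nat.card_Icc,
      Nat.card_Icc, Finset.card_range]
    have h1 : k + 2 + 1 - k = 3 := by omega
    have h2 : j - R + 1 - (j - R - 2) ≤ 3 := by omega
    have h3 : k + R + 4 + 1 - k = R + 5 := by omega
    rw [h1, h3]
    calc 3 * ((j - R + 1 - (j - R - 2)) * ((R + 5) * 9)) ≤ 3 * (3 * ((R + 5) * 9)) := by gcongr
      _ = 81 * (R + 5) := by ring
  · rintro ⟨x, y, z, q⟩ h hk hj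
    obtain ⟨h1, h2, h3, h4, h5, h6, h7, h8, h9⟩ := h
    simp only [kkF, jjF] at h1 h2 h3 h4 h5 h6 h7 h8 h9 hk hj
    refine Finset.mem_image.2 ⟨(x, y, z, x + y + R + 2 - z - q), ?_, ?_⟩
    · simp only [Finset.mem_product, Finset.mem_Icc, Finset.mem_range]
      rcases Nat.le_total (y + R + 2) n1 with h10 | h10
      · rw [min_eq_left h10] at hj
        omega
      · rw [min_eq_right h10] at hj
        omega
    · simp only [Prod.mk.injEq, true_and]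
      omega

variable {Ω : Type} [Fintype Ω]

/-- the value for one shape -/
noncomputable def bF (lam : ℝ) (P : Law Ω) (a r R d n : ℕ) (l : Ω → Ln) (t v : Ω → ℝ) (V B : Bx Ω)
    (e : ℕ × ℕ × ℕ × ℕ) : ℝ :=
  Stk.hc (P.cond (shp V B) e) (fun ω => tb n (l ω)) (fun ω => (B.lab ω, (cell a r l t v ω, ()))) +
    Real.log 2 * ((P.cond (shp V B) e).ex (V.szl lam) + (1 - lam) * R - 6) +
    Real.log 2 * (lam * (((R : ℝ) - d) * max 0 (1 - 3 * colp (P.cond (shp V B) e)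
      (fun ω => fl1 (r + d) (v ω)) (fun ω => (tb n (l ω), (cell a r l t v ω, ())))))) -
    (72 + 2 * Real.log (d + 7))

theorem one_shape {lam : ℝ} (h0 : 0 ≤ lam) (h1 : lam ≤ 1) {P : Law Ω} {a w r R d n : ℕ}
    {l : Ω → Ln} {t v : Ω → ℝ}
    (hr : ∀ ω ω', 0 < P.w ω → 0 < P.w ω' → tb n (l ω) = tb n (l ω') → l ω = l ω') (hd : d ≤ R)
    {V B : Bx Ω} (hE : ∀ ω, 0 < P.w ω → Ex w R (n - a - r) (shp V B ω))
    (hB : ∀ ω, 0 < P.w ω → B.l ω = lnS a r l t v ω ∧ |B.θ ω| ≤ 4 ∧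
      |Real.sin (B.θ ω) - qa R (tfF r v ω) * Real.cos (B.θ ω)| * (2:ℝ) ^ (R + V.k ω) ≤
          2 ^ 3 * 2 ^ B.k ω)
    (e : ℕ × ℕ × ℕ × ℕ) (he : 0 < P.pr (shp V B) e) :
    ∃ (Ω'' : Type) (_ : Fintype Ω'') (Q : Law Ω'') (q : Ω'' → Ω) (A : Bx Ω''),
      (∀ w, Q.pr q w = (P.cond (shp V B) e).w w) ∧
      (∀ w, 0 < Q.w w → A.l w = lnS a r l t v (q w) ∧ |A.θ w| ≤ 4 ∧ A.k w ≤ A.j w ∧
        kkF e ≤ A.k w ∧ A.j w ≤ jjF R (n - a - r) e) ∧
      bF lam P a r R d n l t v V B e ≤ Stk.hc Q (fun w => tb n (l (q w)))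
        (fun w => (A.lab w, (cell a r l t v (q w), ()))) + Real.log 2 * Q.ex (A.szl lam) := by
  obtain ⟨x, y, z, q⟩ := e
  set P' := P.cond (shp V B) (x, y, z, q) with hP'
  have p1 : ∀ ω, 0 < P'.w ω → 0 < P.w ω := fun ω h => JSB.cond_supp P _ _ h
  have p2 : ∀ ω, 0 < P'.w ω → V.k ω = x ∧ V.j ω = y ∧ B.k ω = z ∧ B.j ω = q := by
    intro ω h
    have h2 := JSB.cond_supp' P _ _ he h
    simp only [shp, Prod.mk.injEq] at h2
    exact h2
  obtain ⟨ω₀, hω₀⟩ : ∃ ω, 0 < P'.w ω := by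
    by_contra hcon
    push Not at hcon
    have h2 := P'.sum_one
    have h3 : ∑ ω, P'.w ω ≤ 0 := Finset.sum_nonpos fun ω _ => hcon ω
    linarith
  have hEx : Ex w R (n - a - r) (x, y, z, q) := by
    have h2 := hE ω₀ (p1 _ hω₀)
    have h3 := JSB.cond_supp' P _ _ he hω₀
    rwa [h3] at h2
  obtain ⟨i1, i2, i3, i4, i5, i6, i7, i8, i9⟩ := hEx
  simp only at i1 i2 i3 i4 i5 i6 i7 i8 i9
  have F := fx_state (P := P') (l := l) (t := t) (v := v) (n := n) (a := a) (r := r) (R := R)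
    (d := d) (x := x) (z := z) (q := q) (B := B)
    (fun ω ω' h h' => hr ω ω' (p1 ω h) (p1 ω' h')) hd (fun ω h => by
      obtain ⟨b1, b2, b3⟩ := hB ω (p1 ω h)
      obtain ⟨c1, c2, c3, c4⟩ := p2 ω h
      rw [c1, c3] at b3
      exact ⟨b1, b2, c3, c4, b3⟩) i3 i7 (by omega)
  obtain ⟨Ω'', iF, Q, π, A, g1, g2, g3⟩ := LipO.lip_fix F h0 h1
  refine ⟨Ω'', iF, Q, π, A, g1, ?_, ?_⟩
  · intro ω hω
    obtain ⟨a1, a2, a3, a4, a5⟩ := g2 ω hω
    have s1 : 0 < P'.w (π ω) := by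
      rw [← g1]
      exact Q.pr_pos π hω
    refine ⟨a1.trans (hB _ (p1 _ s1)).1, a2, a3, ?_, ?_⟩
    · show x - 2 ≤ A.k ω
      omega
    · show A.j ω ≤ min (y + R + 2) (n - a - r)
      omega
  · refine le_trans ?_ (sub_le_iff_le_add.2 g3)
    have e1 : P'.ex (V.szl lam) = (1 + lam) * x + (1 - lam) * y := by
      have : P'.ex (V.szl lam) = P'.ex (fun _ => (1 + lam) * x + (1 - lam) * y) := by
        refine P'.ex_congr fun ω h => ?_
        obtain ⟨c1, c2, c3, c4⟩ := p2 ω h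
        show (1 + lam) * (V.k ω : ℝ) + (1 - lam) * (V.j ω : ℝ) = _
        rw [c1, c2]
      rw [this, P'.ex_const]
    have e2 : (x : ℝ) + y + R ≤ z + q + 6 := by exact_mod_cast i6
    have e3 : (1 + lam) * (x : ℝ) + (1 - lam) * y + (1 - lam) * R - 6 ≤
        (1 - lam) * (z + q) + 2 * lam * x := by
      have := mul_le_mul_of_nonneg_left e2 (sub_nonneg.2 h1)
      nlinarith
    have hl2 : 0 ≤ Real.log 2 := Real.log_nonneg (by norm_num)
    have e4 := mul_le_mul_of_nonneg_left e3 hl2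
    have e5 : colp P' (fun ω => fl1 (r + d) (v ω))
        (fun ω => (tb n (l ω), (cell a r l t v ω, ()))) =
        Lip.col P' (fun ω => fl1 (r + d) (v ω))
          (fun ω => (tb n (l ω), (cell a r l t v ω, ()))) := rfl
    unfold bF
    rw [← hP', e1, e5]
    push_cast
    linarith

end Vale.Agent.P127.U.LipS
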