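import Vale.Agent.P127.U.Lam.Inc

/-!
# P127 / U / H560 : LIP of one window, statement (helper560)
-/

set_option autoImplicit false

namespace Vale.Agent.P127.U.LipS

open Vale.Agent.P127 Vale.Agent.P127.Stk Vale.Agent.P127.U Pf Inc Mic

/-- LIP of the window `(w, R)` after the state `(a, r)` -/
def LipWin : Prop :=
  ∃ cT : ℝ, 0 ≤ cT ∧ ∀ lam κ Λ K : ℝ, 0 < lam → 0 < κ → lam + κ ≤ 1 → 0 ≤ Λ → 1 ≤ K →
    2 * Λ ≤ κ * Real.log 2 * K →
    ∀ (Ω : Type) [Fintype Ω] (Q : Law Ω) (l : Ω → Ln) (t v : Ω → ℝ) (n : ℕ),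
      GoodF Q l t → (∀ ω, 0 < Q.w ω → |v ω| ≤ 1) → Rnd Q l n →
      ∀ a w r R d : ℕ, a + w + (r + R) ≤ n → d ≤ R →
      ∃ (Ω' : Type) (_ : Fintype Ω') (Q' : Law Ω') (π : Ω' → Ω) (σ : Ω' → ℕ × ℕ × ℕ × ℕ),
        (∀ ω, Q'.pr π ω = Q.w ω) ∧
        EFH Q (lam + κ) Λ n (a + w) (r + R) l t v (fun _ => ()) ≤
          EFH Q (lam + κ) Λ n a r l t v (fun _ => ()) + 2 * w * Real.log 2 -
          lam * ((R : ℝ) - d) * Real.log 2 *
            max 0 (1 - 3 * colp Q' (fun ω => fl1 (r + d) (v (π ω)))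
              (fun ω => ((tb n (l (π ω)), st t v a r (π ω)), σ ω))) -
          Λ * mi Q' (fun ω => st t v (a + w) (r + R) (π ω)) σ
            (fun ω => (tb n (l (π ω)), st t v a r (π ω))) +
          (cT + 2 * Real.log (d + 7) + 4 * κ * Real.log 2 +
            Λ * (2 * Real.log K + 2 * Real.log 4 + Real.log 81 + Real.log (R + 5)))

end Vale.Agent.P127.U.LipS
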