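import Vale.Agent.P127.U.H560.LipT
import Vale.Agent.P127.U.H560.LipW0
import Vale.Agent.P127.U.Lam.JL

/-!
# P127 / U / H560 : LIP at a state, the sum over the shapes (helper560)
-/

set_option autoImplicit false

namespace Vale.Agent.P127.U.LipS

open Vale.Agent.P127 Vale.Agent.P127.Stk Vale.Agent.P127.U Apx Pf Mic

variable {Ω : Type} [Fintype Ω]

/-- the sum of the values of the shapes -/
theorem sum_bF {lam : ℝ} (h0 : 0 ≤ lam) (P : Law Ω) (a r R d n : ℕ) (hd : d ≤ R)
    (l : Ω → Ln) (t v : Ω → ℝ) (V B : Bx Ω) :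
    Stk.hc P (fun ω => tb n (l ω)) (fun ω => ((B.lab ω, (cell a r l t v ω, ())), shp V B ω)) +
      Real.log 2 * (P.ex (V.szl lam) + (1 - lam) * R - 6) +
      lam * ((R : ℝ) - d) * Real.log 2 * max 0 (1 - 3 * colp P (fun ω => fl1 (r + d) (v ω))
        (fun ω => ((tb n (l ω), (cell a r l t v ω, ())), shp V B ω))) -
      (72 + 2 * Real.log (d + 7)) ≤
    ∑ e ∈ img (shp V B), P.pr (shp V B) e * bF lam P a r R d n l t v V B e := by
  have e1 := JSB.hc_cond_sum P (fun ω => tb n (l ω)) (fun ω => (B.lab ω, (cell a r l t v ω, ())))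
    (shp V B)
  have e2 := Lam.ex_cond_sum P (V.szl lam) (shp V B)
  have e3 := LiftT.colp_jensen P (fun ω => fl1 (r + d) (v ω))
    (fun ω => (tb n (l ω), (cell a r l t v ω, ()))) (shp V B)
  have e4 : ∑ e ∈ img (shp V B), P.pr (shp V B) e = 1 := P.sum_pr_image (shp V B)
  have hR : 0 ≤ (R : ℝ) - d := by
    have : (d : ℝ) ≤ R := by exact_mod_cast hd
    linarith
  have hl2 : 0 ≤ Real.log 2 := Real.log_nonneg (by norm_num)
  have e5 := mul_le_mul_of_nonneg_left e3 (mul_nonneg (mul_nonneg h0 hR) hl2)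
  have e6 : ∑ e ∈ img (shp V B), P.pr (shp V B) e * bF lam P a r R d n l t v V B e =
      ∑ e ∈ img (shp V B), P.pr (shp V B) e * Stk.hc (P.cond (shp V B) e)
        (fun ω => tb n (l ω)) (fun ω => (B.lab ω, (cell a r l t v ω, ()))) +
      Real.log 2 * ∑ e ∈ img (shp V B), P.pr (shp V B) e * (P.cond (shp V B) e).ex (V.szl lam) +
      lam * ((R : ℝ) - d) * Real.log 2 * ∑ e ∈ img (shp V B), P.pr (shp V B) e *
        max 0 (1 - 3 * colp (P.cond (shp V B) e) (fun ω => fl1 (r + d) (v ω))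
          (fun ω => (tb n (l ω), (cell a r l t v ω, ())))) +
      (Real.log 2 * ((1 - lam) * R - 6) - (72 + 2 * Real.log (d + 7))) *
        ∑ e ∈ img (shp V B), P.pr (shp V B) e := by
    rw [Finset.mul_sum, Finset.mul_sum, Finset.mul_sum, ← Finset.sum_add_distrib,
      ← Finset.sum_add_distrib, ← Finset.sum_add_distrib]
    refine Finset.sum_congr rfl fun e _ => ?_
    unfold bF
    ring
  rw [e6, ← e1, e2, e4]
  linarith

end Vale.Agent.P127.U.LipS
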