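import Vale.Agent.P127.U.H560.LipU
import Vale.Agent.P127.U.Lam.LipW2

/-!
# P127 / U / H560 : LIP of one window (helper560)

* `lipWin : LipWin`
-/

set_option autoImplicit false

namespace Vale.Agent.P127.U.LipS

open Vale.Agent.P127 Vale.Agent.P127.Stk Vale.Agent.P127.U Apx Pf Mic Inc

variable {Ω : Type} [Fintype Ω]

/-- the collisions given the cell are fewer than the collisions given the state -/
theorem colp_cell {P : Law Ω} {l : Ω → Ln} {t v : Ω → ℝ} {n : ℕ} (hr : Rnd P l n) (a r : ℕ)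
    {α β : Type*} (z : Ω → α) (S : Ω → β) :
    colp P z (fun ω => ((tb n (l ω), (cell a r l t v ω, ())), S ω)) ≤
      colp P z (fun ω => ((tb n (l ω), st t v a r ω), S ω)) := by
  refine colp_mono_cond P z ?_
  intro ω ω' p p' e
  simp only [Prod.mk.injEq, st] at e ⊢
  obtain ⟨⟨e1, e2, e3⟩, e4⟩ := e
  have e0 : l ω = l ω' := hr ω ω' p p' e1
  refine ⟨⟨e1, ?_, trivial⟩, e4⟩
  have q1 : qa a (t ω) = qa a (t ω') := by unfold qa; rw [e2]
  have q2 : qa r (v ω) = qa r (v ω') := by unfold qa; rw [e3]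
  unfold cell cell1
  have s : ∀ x, Pf.shv r (v ω) x = Pf.shv r (v ω') x := fun x => by unfold Pf.shv; rw [q2]
  rw [e2, e3, e0, q1, s, s]

/-- the constant -/
noncomputable def cT : ℝ := |cG1| + |cE| + 6 * Real.log 2 + 73

theorem final_arith {lam κ Λ L2 EF' EF0 hcV hcB X1 X2 X3 D H0 H1 S exc rf gain gain' M nn aa rr ww RR lg
    cg ce ll : ℝ}
    (h1 : EF' ≤ hcV - L2 * X2 + Λ * H0 + ce)
    (h2 : hcV ≤ hcB + cg)
    (h3 : hcB + L2 * (X1 + (1 - lam) * RR - 6) + gain' - (72 + 2 * lg) ≤ S)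
    (h4 : S + Λ * H1 ≤ exc + rf + 2 * (nn - aa - rr) * L2 + κ * L2 * X3 + Λ * ll + 1)
    (h5 : EF0 = exc + rf - (1 + (lam + κ)) * rr * L2)
    (h6 : Λ * (H0 - H1) ≤ Λ * (-M))
    (h7 : gain ≤ gain')
    (h8 : X2 = 2 * (nn - (aa + ww)) - (1 - (lam + κ)) * (rr + RR) - X1 - κ * D)
    (h9 : κ * L2 * X3 ≤ κ * L2 * (-D + RR + 4)) :
    EF' ≤ EF0 + 2 * ww * L2 - gain - Λ * M + (cg + ce + 6 * L2 + 73 + 2 * lg + 4 * κ * L2 + Λ * ll) := by
  subst h8
  subst h5
  nlinarith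

theorem lipWin : LipWin := by
  refine ⟨cT, ?_, ?_⟩
  · have := Real.log_nonneg (show (1:ℝ) ≤ 2 by norm_num)
    unfold cT
    positivity
  intro lam κ Λ K h0 hκ h1 hΛ hK hK2 Ω _ Q l t v n hg hv hr a w r R d hn hd
  obtain ⟨Ω', iF, P, π, V, g1, g2, g3⟩ := EFH_soft (lam := lam + κ) hΛ (P := Q) (n := n)
    (a := a + w) (r := r + R) hn hg hv (fun _ => ())
  have hp : ∀ ω, 0 < P.w ω → 0 < Q.w (π ω) := fun ω hω => by
    rw [← g1]
    exact P.pr_pos π hω
  have hg' : GoodF P (fun ω => l (π ω)) (fun ω => t (π ω)) := fun ω hω => hg (π ω) (hp ω hω)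
  have hr' : Rnd P (fun ω => l (π ω)) n := fun ω ω' p p' e => hr _ _ (hp ω p) (hp ω' p') e
  obtain ⟨B, b1, b2⟩ := geo (t := fun ω => t (π ω)) (v := fun ω => v (π ω)) hg' V hn g2
  have hE : ∀ ω, 0 < P.w ω → Ex w R (n - a - r) (shp V B ω) := by
    intro ω hω
    obtain ⟨c1, c2, c3, c4, c5, c6, c7, c8, c9, c10, c11⟩ := b1 ω hω
    obtain ⟨d1, d2, d3, d4, d5, d6⟩ := g2 ω hω
    have d7 : V.j ω ≤ n - (a + w) - (r + R) := d5
    refine ⟨d3, ?_, c3, ?_, c5, c6, c7, c8, c10⟩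
    · show V.j ω + w + R ≤ n - a - r
      omega
    · show B.j ω + w ≤ n - a - r
      omega
  have hB : ∀ ω, 0 < P.w ω → B.l ω = lnS a r (fun ω => l (π ω)) (fun ω => t (π ω))
      (fun ω => v (π ω)) ω ∧ |B.θ ω| ≤ 4 ∧
      |Real.sin (B.θ ω) - qa R (tfF r (fun ω => v (π ω)) ω) * Real.cos (B.θ ω)| *
        (2:ℝ) ^ (R + V.k ω) ≤ 2 ^ 3 * 2 ^ B.k ω := by
    intro ω hω
    obtain ⟨c1, c2, c3, c4, c5, c6, c7, c8, c9, c10, c11⟩ := b1 ω hω
    exact ⟨c1, c2, c11⟩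
  have hL := LiftT.liftT (lam := lam) (Np := Λ) (T := fun ω => tb n (l ω)) (P := Q)
    (n1 := n - a - r) (l1 := lnS a r l t v) (C1 := fun ω => (cell a r l t v ω, ())) h0.le hκ h1 hΛ hK
    hK2 g1 (shp V B) kkF (jjF R (n - a - r))
    (bF lam P a r R d n (fun ω => l (π ω)) (fun ω => t (π ω)) (fun ω => v (π ω)) V B)
    (81 * (R + 5)) (fun ω hω => by
      obtain ⟨i1, i2, -⟩ := hE ω hω
      refine ⟨?_, min_le_right _ _⟩
      show (shp V B ω).1 - 2 ≤ min ((shp V B ω).2.1 + R + 2) (n - a - r)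
      rw [le_min_iff]
      omega) (fun k j => by
      obtain ⟨F, f1, f2⟩ := fib w R (n - a - r) k j
      exact ⟨F, f1, fun ω hω => f2 _ (hE ω hω)⟩)
    (fun e he => one_shape h0.le (by linarith) hr' hd hE hB e he)
  have hS := sum_bF h0.le P a r R d n hd (fun ω => l (π ω)) (fun ω => t (π ω)) (fun ω => v (π ω)) V B
  have hG := b2 (fun ω => tb n (l (π ω)))
  have hM := refund (P := P) (l := fun ω => l (π ω)) (t := fun ω => t (π ω))
    (v := fun ω => v (π ω)) (n := n) (a := a) (w := w) (r := r) (R := R) hr' (shp V B)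
    (fun ω => (V.k ω, V.j ω)) (fun ω ω' e => by
      simp only [shp, Prod.mk.injEq] at e ⊢
      exact ⟨e.1, e.2.1⟩)
  have hC := colp_cell (P := P) (t := fun ω => t (π ω)) (v := fun ω => v (π ω)) hr' a r
    (fun ω => fl1 (r + d) (v (π ω))) (shp V B)
  have hl2 : 0 ≤ Real.log 2 := Real.log_nonneg (by norm_num)
  have hRd : 0 ≤ (R : ℝ) - d := by
    have : (d : ℝ) ≤ R := by exact_mod_cast hd
    linarith
  have hgain : lam * ((R : ℝ) - d) * Real.log 2 *
      max 0 (1 - 3 * colp P (fun ω => fl1 (r + d) (v (π ω)))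
        (fun ω => ((tb n (l (π ω)), st (fun ω => t (π ω)) (fun ω => v (π ω)) a r ω),
          shp V B ω))) ≤
      lam * ((R : ℝ) - d) * Real.log 2 * max 0 (1 - 3 * colp P (fun ω => fl1 (r + d) (v (π ω)))
        (fun ω => ((tb n (l (π ω)), (cell a r (fun ω => l (π ω)) (fun ω => t (π ω))
          (fun ω => v (π ω)) ω, ())), shp V B ω))) :=
    mul_le_mul_of_nonneg_left (max_le_max le_rfl (by linarith))
      (mul_nonneg (mul_nonneg h0.le hRd) hl2)
  have hX2 : P.ex (fun ω => 2 * ((n : ℝ) - ((a + w : ℕ) : ℝ)) - (1 - (lam + κ)) * ((r + R : ℕ) : ℝ) -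
      V.szl (lam + κ) ω) = 2 * ((n : ℝ) - (a + w)) - (1 - (lam + κ)) * (r + R) -
        P.ex (V.szl lam) - κ * P.ex (fun ω => (V.k ω : ℝ) - V.j ω) := by
    have e1 : ∀ ω, 2 * ((n : ℝ) - ((a + w : ℕ) : ℝ)) - (1 - (lam + κ)) * ((r + R : ℕ) : ℝ) -
        V.szl (lam + κ) ω = (2 * ((n : ℝ) - (a + w)) - (1 - (lam + κ)) * (r + R)) -
          V.szl lam ω - κ * ((V.k ω : ℝ) - V.j ω) := by
      intro ω
      unfold Bx.szl
      push_cast
      ring
    simp only [e1]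
    rw [P.ex_sub, P.ex_sub, P.ex_const, P.ex_const_mul]
  have hX3 : P.ex (fun ω => (jjF R (n - a - r) (shp V B ω) : ℝ) - kkF (shp V B ω)) ≤
      -P.ex (fun ω => (V.k ω : ℝ) - V.j ω) + R + 4 := by
    have e1 : -P.ex (fun ω => (V.k ω : ℝ) - V.j ω) + R + 4 =
        P.ex (fun ω => -((V.k ω : ℝ) - V.j ω) + ((R : ℝ) + 4)) := by
      rw [P.ex_add, P.ex_neg, P.ex_const]
      ring
    rw [e1]
    refine P.ex_mono fun ω _ => ?_
    have k1 : jjF R (n - a - r) (shp V B ω) ≤ V.j ω + R + 2 := min_le_left _ _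
    have k2 : V.k ω ≤ kkF (shp V B ω) + 2 := by
      show V.k ω ≤ (V.k ω - 2) + 2
      omega
    have k3 : (jjF R (n - a - r) (shp V B ω) : ℝ) ≤ V.j ω + R + 2 := by exact_mod_cast k1
    have k4 : (V.k ω : ℝ) ≤ kkF (shp V B ω) + 2 := by exact_mod_cast k2
    linarith
  have hn1 : ((n - a - r : ℕ) : ℝ) = n - a - r := by
    rw [Nat.cast_sub (by omega), Nat.cast_sub (by omega)]
  have hlog : Real.log ((81 * (R + 5) : ℕ) : ℝ) = Real.log 81 + Real.log ((R : ℝ) + 5) := by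
    push_cast
    rw [Real.log_mul (by norm_num) (by positivity)]
  have hX3' := mul_le_mul_of_nonneg_left hX3 (mul_nonneg hκ.le hl2)
  have hM' := mul_le_mul_of_nonneg_left hM hΛ
  rw [hn1, hlog] at hL
  have hEF : EFH Q (lam + κ) Λ n a r l t v (fun _ => ()) =
      excH (lam + κ) Λ Q (n - a - r) (lnS a r l t v) (fun ω => (cell a r l t v ω, ())) +
      Stk.hc Q (fun ω => tb n (l ω)) (fun ω => (tb (n - a - r) (lnS a r l t v ω),
        (cell a r l t v ω, ()))) - (1 + (lam + κ)) * r * Real.log 2 := rfl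
  refine ⟨Ω', iF, P, π, shp V B, g1, ?_⟩
  have key := final_arith (gain := lam * ((R : ℝ) - d) * Real.log 2 *
      max 0 (1 - 3 * colp P (fun ω => fl1 (r + d) (v (π ω)))
        (fun ω => ((tb n (l (π ω)), st (fun ω => t (π ω)) (fun ω => v (π ω)) a r ω),
          shp V B ω)))) g3 hG hS hL hEF hM' hgain hX2 hX3'
  refine key.trans ?_
  have c1 := le_abs_self cG1
  have c2 := le_abs_self cE
  have e9 : mi P (st (fun ω => t (π ω)) (fun ω => v (π ω)) (a + w) (r + R)) (shp V B)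
      (fun ω => (tb n (l (π ω)), st (fun ω => t (π ω)) (fun ω => v (π ω)) a r ω)) =
      mi P (fun ω => st t v (a + w) (r + R) (π ω)) (shp V B)
        (fun ω => (tb n (l (π ω)), st t v a r (π ω))) := rfl
  have e10 : (fun ω => ((tb n (l (π ω)), st (fun ω => t (π ω)) (fun ω => v (π ω)) a r ω),
          shp V B ω)) = fun ω => ((tb n (l (π ω)), st t v a r (π ω)), shp V B ω) := rfl
  rw [e9, e10]
  unfold cT
  linarith

end Vale.Agent.P127.U.LipS
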