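import Vale.Agent.P127.U.Lam.LipB
import Vale.Agent.P127.U.JS

/-!
# P127 / U / H560 : submodularity with an event (helper560)

* `mtG A g s`, `jnG A A' g s` : meet and join on the event `g`, the boxes `A`, `A'` themselves off `g`.
* `sub_ev` : on `g` the hypotheses of `Lip.sub_lev`, off `g` nothing; the entropy of the level is
  needed on `g` only.
-/

set_option autoImplicit false

namespace Vale.Agent.P127.U.Lip

open Vale.Agent.P127 Vale.Agent.P127.Stk Apx C2 SubF JSB

/-- the meet on `g`, the first box off `g` -/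
def mtG {Ω : Type} (A : Bx Ω) (g : Ω → Bool) (s : Ω → ℕ) : Bx Ω :=
  ⟨A.l, A.θ, fun ω => if g ω = true then A.j ω - s ω else A.k ω, A.j⟩

/-- the join on `g`, the second box off `g` -/
def jnG {Ω : Type} (A A' : Bx Ω) (g : Ω → Bool) (s : Ω → ℕ) : Bx Ω :=
  ⟨A.l, fun ω => if g ω = true then A.θ ω else A'.θ ω, A.k,
    fun ω => if g ω = true then A.k ω + s ω else A.j ω⟩

variable {Ω : Type} [Fintype Ω] {γ ξ : Type*}

/-- two boxes with equal labels -/
theorem hc_lab_eq (P : Law Ω) (U V : Bx Ω) (X : Ω → ξ) (C : Ω → γ)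
    (h : ∀ ω, 0 < P.w ω → U.lab ω = V.lab ω) :
    hc P X (fun ω => (U.lab ω, C ω)) = hc P X (fun ω => (V.lab ω, C ω)) := by
  refine hc_congr P (fun _ _ _ _ e => congrArg Prod.fst e) (fun _ _ _ _ e => congrArg Prod.fst e)
    ?_ ?_
  · intro ω ω' p p' e
    simp only [Prod.mk.injEq] at e ⊢
    exact ⟨by rw [h ω p, h ω' p', e.1], e.2⟩
  · intro ω ω' p p' e
    simp only [Prod.mk.injEq] at e ⊢
    exact ⟨by rw [← h ω p, ← h ω' p', e.1], e.2⟩

theorem mi_cond_sum {α β : Type*} (P : Law Ω) (X : Ω → α) (Y : Ω → β) (Z : Ω → ξ) (D : Ω → γ) :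
    mi P X Y (fun ω => (Z ω, D ω)) = ∑ d ∈ img D, P.pr D d * mi (P.cond D d) X Y Z := by
  have h1 := hc_cond_sum P X Z D
  have h2 := hc_cond_sum P X (fun ω => (Y ω, Z ω)) D
  have h3 : hc P X (fun ω => (Y ω, Z ω, D ω)) = hc P X (fun ω => ((Y ω, Z ω), D ω)) := by
    refine hc_congr P (fun _ _ _ _ e => congrArg Prod.fst e)
      (fun _ _ _ _ e => congrArg Prod.fst e) ?_ ?_
    · intro ω ω' _ _ e
      simp only [Prod.mk.injEq] at e ⊢
      exact ⟨e.1.1, e.1.2, e.2⟩
    · intro ω ω' _ _ e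
      simp only [Prod.mk.injEq] at e ⊢
      exact ⟨⟨e.1, e.2.1⟩, e.2.2⟩
  have h4 : ∑ d ∈ img D, P.pr D d * mi (P.cond D d) X Y Z =
      ∑ d ∈ img D, P.pr D d * hc (P.cond D d) X Z -
        ∑ d ∈ img D, P.pr D d * hc (P.cond D d) X (fun ω => (Y ω, Z ω)) := by
    rw [← Finset.sum_sub_distrib]
    refine Finset.sum_congr rfl fun d _ => ?_
    unfold mi
    ring
  rw [h4, ← h1, ← h2, ← h3]
  rfl

/-- conditioning on a further variable costs at most its entropy -/
theorem mi_add_cond {α β δ : Type*} (P : Law Ω) (X : Ω → α) (Y : Ω → β) (Z : Ω → ξ) (D : Ω → δ) :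
    mi P X Y (fun ω => (Z ω, D ω)) ≤ mi P X Y Z + hc P D Z := by
  have h1 : mi P Y X (fun ω => (Z ω, D ω)) = mi P X Y (fun ω => (Z ω, D ω)) := mi_symm P _ _ _
  have h2 := mi_symm P X Y Z
  -- `H(X | Z, D) ≤ H(X | Z)` and `H(X | Y, Z) ≤ H(X | Y, Z, D) + H(D | Y, Z)`
  have h3 : hc P X (fun ω => (Z ω, D ω)) ≤ hc P X Z :=
    hc_mono_right P X fun _ _ _ _ e => congrArg Prod.fst e
  have h4 := hc_le_add' P X D (fun ω => (Y ω, Z ω))
  have h5 : hc P X (fun ω => (D ω, Y ω, Z ω)) ≤ hc P X (fun ω => (Y ω, Z ω, D ω)) :=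
    hc_mono_right P X fun _ _ _ _ e => by
      simp only [Prod.mk.injEq] at e ⊢
      exact ⟨e.2.1, e.2.2, e.1⟩
  have h6 : hc P D (fun ω => (Y ω, Z ω)) ≤ hc P D Z :=
    hc_mono_right P D fun _ _ _ _ e => congrArg Prod.snd e
  unfold mi
  linarith

/-- a Boolean variable -/
theorem hc_bool_le {δ : Type*} (P : Law Ω) (g : Ω → Bool) (Z : Ω → δ) : hc P g Z ≤ Real.log 2 := by
  have := hc_le_log P g Z 2 (fun _ _ => ⟨Finset.univ, by simp, fun _ _ _ => Finset.mem_univ _⟩)
  exact_mod_cast this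

/-- **SUB with an event** -/
theorem sub_ev (P : Law Ω) (A A' : Bx Ω) (g : Ω → Bool) (s : Ω → ℕ) (X : Ω → ξ) (C : Ω → γ)
    (hok : ∀ ω, 0 < P.w ω → Nr ((1 / 2 : ℝ) ^ A.j ω) (A'.l ω) (A.l ω) ∧ A'.k ω = A.k ω ∧
      A'.j ω = A.j ω ∧ A.k ω ≤ A.j ω ∧ |A.θ ω| ≤ 4 ∧ |A'.θ ω| ≤ 4)
    (hs : ∀ ω, 0 < P.w ω → g ω = true → s ω ≤ A.j ω - A.k ω ∧
      |Real.sin (A'.θ ω - A.θ ω)| ≤ 8 * (1 / 2 : ℝ) ^ s ω ∧
      (s ω < A.j ω - A.k ω → 4 * (1 / 2 : ℝ) ^ s ω ≤ |Real.sin (A'.θ ω - A.θ ω)|)) :
    hc P X (fun ω => (A.lab ω, C ω)) + hc P X (fun ω => (A'.lab ω, C ω)) ≤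
      hc P X (fun ω => ((mtG A g s).lab ω, C ω)) + hc P X (fun ω => ((jnG A A' g s).lab ω, C ω)) +
      mi P A.lab A'.lab (fun ω => (X ω, C ω)) + 130 +
        3 * hc P (fun ω => if g ω = true then s ω else 0) C := by
  classical
  have hl2 : Real.log 2 ≤ 1 := by
    have := Real.log_two_lt_d9
    linarith
  have hl193 : Real.log 193 ≤ 5.3 := by
    have h1 : Real.log 193 ≤ Real.log (2 ^ (38 / 5 : ℝ)) := by
      refine Real.log_le_log (by norm_num) ?_
      have h2 : (193 : ℝ) ^ (5 : ℕ) ≤ (2 : ℝ) ^ (38 : ℕ) := by norm_num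
      have h3 : ((193 : ℝ) ^ (5 : ℕ)) ^ ((1 : ℝ) / 5) ≤ ((2 : ℝ) ^ (38 : ℕ)) ^ ((1 : ℝ) / 5) :=
        Real.rpow_le_rpow (by positivity) h2 (by norm_num)
      rw [← Real.rpow_natCast, ← Real.rpow_natCast, ← Real.rpow_mul (by norm_num),
        ← Real.rpow_mul (by norm_num)] at h3
      norm_num at h3
      norm_num
      exact h3
    rw [Real.log_rpow (by norm_num)] at h1
    have := Real.log_two_lt_d9
    linarith
  set s' : Ω → ℕ := fun ω => if g ω = true then s ω else 0 with hs'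
  set K : ℝ := 100 + 5 * Real.log (2 * (95 : ℕ) + 3) with hK
  have hKle : K ≤ 127 := by
    rw [hK]
    have e : (2 * ((95 : ℕ) : ℝ) + 3) = 193 := by norm_num
    rw [e]
    linarith
  have hl193' : 0 ≤ 5 * Real.log (2 * ((95 : ℕ) : ℝ) + 3) := by
    have e : (2 * ((95 : ℕ) : ℝ) + 3) = 193 := by norm_num
    rw [e]
    have := Real.log_nonneg (show (1 : ℝ) ≤ 193 by norm_num)
    linarith
  -- the inequality for one value of `g`
  have key : ∀ d ∈ img g, P.pr g d * hc (P.cond g d) X (fun ω => (A.lab ω, C ω)) +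
      P.pr g d * hc (P.cond g d) X (fun ω => (A'.lab ω, C ω)) ≤
      P.pr g d * hc (P.cond g d) X (fun ω => ((mtG A g s).lab ω, C ω)) +
      P.pr g d * hc (P.cond g d) X (fun ω => ((jnG A A' g s).lab ω, C ω)) +
      P.pr g d * mi (P.cond g d) A.lab A'.lab (fun ω => (X ω, C ω)) + P.pr g d * K +
      3 * (P.pr g d * hc (P.cond g d) s' C) := by
    intro d _
    rcases (P.pr_nonneg g d).eq_or_lt with h0 | h0
    · rw [← h0]
      simp
    set Q := P.cond g d with hQ
    have q1 : ∀ ω, 0 < Q.w ω → 0 < P.w ω := fun ω h => cond_supp P g d h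
    have q2 : ∀ ω, 0 < Q.w ω → g ω = d := fun ω h => cond_supp' P g d h0 h
    have main : hc Q X (fun ω => (A.lab ω, C ω)) + hc Q X (fun ω => (A'.lab ω, C ω)) ≤
        hc Q X (fun ω => ((mtG A g s).lab ω, C ω)) +
        hc Q X (fun ω => ((jnG A A' g s).lab ω, C ω)) +
        mi Q A.lab A'.lab (fun ω => (X ω, C ω)) + K + 3 * hc Q s' C := by
      cases d with
      | true =>
        have h1 := sub_lev Q A A' s X C (fun ω h => hok ω (q1 ω h))
          (fun ω h => hs ω (q1 ω h) (q2 ω h))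
        have h2 := hc_lab_eq Q (mtG A g s) (mtS A s) X C (fun ω h => by
          unfold Bx.lab mtG mtS
          simp only [q2 ω h, if_true])
        have h3 := hc_lab_eq Q (jnG A A' g s) (jnS A s) X C (fun ω h => by
          unfold Bx.lab jnG jnS
          simp only [q2 ω h, if_true])
        have h4 : hc Q s C = hc Q s' C := by
          refine hc_congr Q ?_ ?_ (fun _ _ _ _ e => e) (fun _ _ _ _ e => e)
          · intro ω ω' p p' e
            have e1 := congrArg Prod.fst e
            simp only [hs', q2 ω p, q2 ω' p', if_true] at e1 ⊢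
            exact e1
          · intro ω ω' p p' e
            have e1 := congrArg Prod.fst e
            simp only [hs', q2 ω p, q2 ω' p', if_true] at e1 ⊢
            exact e1
        rw [h2, h3, ← h4]
        linarith
      | false =>
        have h2 := hc_lab_eq Q (mtG A g s) A X C (fun ω h => by
          unfold Bx.lab mtG
          simp only [q2 ω h]
          rfl)
        have h3 : hc Q X (fun ω => (A'.lab ω, C ω)) ≤
            hc Q X (fun ω => ((jnG A A' g s).lab ω, C ω)) + 5 * Real.log (2 * (95 : ℕ) + 3) := by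
          have g1 := hc_le_add' Q X (jnG A A' g s).lab (fun ω => (A'.lab ω, C ω))
          have g2 : hc Q X (fun ω => ((jnG A A' g s).lab ω, A'.lab ω, C ω)) ≤
              hc Q X (fun ω => ((jnG A A' g s).lab ω, C ω)) :=
            hc_mono_right Q X fun _ _ _ _ e => by
              simp only [Prod.mk.injEq] at e ⊢
              exact ⟨e.1, e.2.2⟩
          have g3 := join_le Q A' A.l A'.θ (fun ω => A'.j ω - A'.k ω) (fun _ => 0)
            (fun ω => (A'.lab ω, C ω))
            (fun ω hω => by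
              obtain ⟨a1, a2, a3, a4, -, -⟩ := hok ω (q1 ω hω)
              refine ⟨⟨by rw [a2, a3]; exact a4, le_rfl, by
                rw [Int.cast_zero, zero_mul, add_zero, sub_self, abs_zero]
                positivity⟩, by rw [a3]; exact a1.symm⟩)
            (fun ω ω' p p' e => by
              have e1 := congrArg Prod.fst e
              simp only at e1
              have e2 := lab_eq e1
              exact ⟨e1, by rw [e2.1, e2.2.1], rfl⟩)
          have g4 : hc Q (jnG A A' g s).lab (fun ω => (A'.lab ω, C ω)) ≤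
              5 * Real.log (2 * (95 : ℕ) + 3) := by
            refine le_trans (le_of_eq ?_) g3
            have hl : ∀ ω, 0 < Q.w ω → (jnG A A' g s).lab ω =
                lab (A'.θ ω) (A'.k ω) (A'.k ω + (A'.j ω - A'.k ω)) (A.l ω) := by
              intro ω h
              obtain ⟨a1, a2, a3, a4, -, -⟩ := hok ω (q1 ω h)
              unfold Bx.lab jnG
              simp only [q2 ω h]
              rw [a2, a3, Nat.add_sub_cancel' a4]
              rfl
            refine hc_congr Q ?_ ?_ (fun _ _ _ _ e => e) (fun _ _ _ _ e => e)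
            · intro ω ω' p p' e
              have e1 := congrArg Prod.fst e
              simp only at e1
              show (jnG A A' g s).lab ω = (jnG A A' g s).lab ω'
              rw [hl ω p, hl ω' p']
              exact e1
            · intro ω ω' p p' e
              have e1 := congrArg Prod.fst e
              simp only at e1
              show lab (A'.θ ω) (A'.k ω) (A'.k ω + (A'.j ω - A'.k ω)) (A.l ω) =
                lab (A'.θ ω') (A'.k ω') (A'.k ω' + (A'.j ω' - A'.k ω')) (A.l ω')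
              rw [← hl ω p, ← hl ω' p']
              exact e1
          linarith
        have h4 := mi_nonneg Q A.lab A'.lab (fun ω => (X ω, C ω))
        have h5 := hc_nonneg Q s' C
        rw [h2]
        linarith
    have h1 := mul_le_mul_of_nonneg_left main h0.le
    linarith
  have hsum := Finset.sum_le_sum key
  simp only [Finset.sum_add_distrib, ← Finset.mul_sum, ← Finset.sum_mul] at hsum
  rw [P.sum_pr_image g, one_mul, ← hc_cond_sum, ← hc_cond_sum, ← hc_cond_sum, ← hc_cond_sum,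
    ← hc_cond_sum, ← mi_cond_sum] at hsum
  -- remove `g`
  have r1 : ∀ U : Bx Ω, hc P X (fun ω => (U.lab ω, C ω)) ≤
      hc P X (fun ω => ((U.lab ω, C ω), g ω)) + Real.log 2 := by
    intro U
    have g1 := hc_le_add' P X g (fun ω => (U.lab ω, C ω))
    have g2 := hc_bool_le P g (fun ω => (U.lab ω, C ω))
    have g3 : hc P X (fun ω => (g ω, U.lab ω, C ω)) ≤ hc P X (fun ω => ((U.lab ω, C ω), g ω)) :=
      hc_mono_right P X fun _ _ _ _ e => by
        simp only [Prod.mk.injEq] at e ⊢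
        exact ⟨e.2, e.1⟩
    linarith
  have r2 : ∀ U : Bx Ω, hc P X (fun ω => ((U.lab ω, C ω), g ω)) ≤
      hc P X (fun ω => (U.lab ω, C ω)) := fun U =>
    hc_mono_right P X fun _ _ _ _ e => congrArg Prod.fst e
  have r3 := mi_add_cond P A.lab A'.lab (fun ω => (X ω, C ω)) g
  have r4 := hc_bool_le P g (fun ω => (X ω, C ω))
  have r5 : hc P s' (fun ω => (C ω, g ω)) ≤ hc P s' C :=
    hc_mono_right P s' fun _ _ _ _ e => congrArg Prod.fst e
  have a1 := r1 A
  have a2 := r1 A'
  have a3 := r2 (mtG A g s)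
  have a4 := r2 (jnG A A' g s)
  linarith

end Vale.Agent.P127.U.Lip
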